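import Vale.Agent.P297Y.AJ.Spec.Pf

/-! The reduction of integral elements and of their divisors. -/

set_option linter.all false

namespace Vale.Agent.P297Y.AJ.Spec

open Vale.Agent.P019P P025H816 Polynomial IntermediateField

variable {k F Ω F₁ T F₂ : Type} [Field k] [Field F] [Field Ω] [Field F₁] [Field T] [Field F₂]
  [Algebra k F] [Algebra k Ω] [Algebra k T] [Algebra Ω F₁] [Algebra T F₂]

section

variable (V : Pl k Ω T) (j₁ : F →+* F₁) (j₂ : F →+* F₂)

/-- The products of a constant and a function, with their reductions. -/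
def Gn : Submonoid (F₁ × F₂) where
  carrier := {z | ∃ v c f, V.Val v c ∧ z = (v • j₁ f, c • j₂ f)}
  one_mem' := ⟨1, 1, 1, V.val_one, by simp [Prod.ext_iff]⟩
  mul_mem' := by
    rintro _ _ ⟨v, c, f, h, rfl⟩ ⟨v', c', f', h', rfl⟩
    exact ⟨v * v', c * c', f * f', h.mul h', by simp [smul_smul, mul_comm]⟩

/-- The integral elements with their reductions. -/
def RI : Subsemiring (F₁ × F₂) := (Gn V j₁ j₂).subsemiringClosure

variable {V j₁ j₂}

theorem gn_mem {v : Ω} {c : T} (h : V.Val v c) (f : F) : (v • j₁ f, c • j₂ f) ∈ RI V j₁ j₂ :=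
  AddSubmonoid.subset_closure ⟨v, c, f, h, rfl⟩

theorem smul_mem {v : Ω} {c : T} (h : V.Val v c) {a : F₁} {a' : F₂} (hz : (a, a') ∈ RI V j₁ j₂) :
    (v • a, c • a') ∈ RI V j₁ j₂ := by
  simpa using mul_mem (gn_mem h 1) hz

theorem ri_ind {p : F₁ × F₂ → Prop} (h0 : p 0) (h1 : ∀ v c f, V.Val v c → p (v • j₁ f, c • j₂ f))
    (h2 : ∀ z w, p z → p w → p (z + w)) {z : F₁ × F₂} (hz : z ∈ RI V j₁ j₂) : p z := by
  induction hz using AddSubmonoid.closure_induction with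
  | mem z h =>
    obtain ⟨v, c, f, h, rfl⟩ := h
    exact h1 v c f h
  | zero => exact h0
  | add z w _ _ a b => exact h2 z w a b

theorem lc_mem {ι : Type} (β : ι → F) {w : ι →₀ Ω} {w' : ι →₀ T} (h : ∀ i, V.Val (w i) (w' i)) :
    (Finsupp.linearCombination Ω (fun i => j₁ (β i)) w,
      Finsupp.linearCombination T (fun i => j₂ (β i)) w') ∈ RI V j₁ j₂ := by
  have hs : w'.support ⊆ w.support := fun i hi => by
    rw [Finsupp.mem_support_iff] at hi ⊢
    exact (h i).ne_zero hi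
  rw [Finsupp.linearCombination_apply, Finsupp.linearCombination_apply,
    Finsupp.sum_of_support_subset w' hs _ (by simp), Finsupp.sum, prod_mk_sum]
  exact sum_mem fun i _ => gn_mem (h i) _

end

theorem lc_base {j : F →+* F₂} (h : ∀ a, j (algebraMap k F a) = algebraMap T F₂ (algebraMap k T a))
    {ι : Type} (β : Module.Basis ι k F) (c : T) (f : F) :
    Finsupp.linearCombination T (fun i => j (β i))
      (c • (β.repr f).mapRange (algebraMap k T) (map_zero _)) = c • j f := by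
  rw [map_smul, Finsupp.linearCombination_apply, Finsupp.sum_mapRange_index (by simp)]
  conv_rhs => rw [← β.linearCombination_repr f, Finsupp.linearCombination_apply, map_finsuppSum]
  simp only [Algebra.smul_def, map_mul, h]

variable [CFF k F] [CFF Ω F₁] [CFF T F₂] {V : Pl k Ω T} {j₁ : F →+* F₁} {j₂ : F →+* F₂}

theorem indep_inf {j : F →+* F₂} (h : IsBC (algebraMap k T) j) {ι : Type} {β : ι → F}
    (hβ : LinearIndependent k β) : LinearIndependent T fun i => j (β i) :=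
  linearIndependent_iff_finset_linearIndependent.2 fun s =>
    h.indep (hβ.comp (Subtype.val : s → ι) Subtype.val_injective)

theorem ri_zero (h₁ : IsBC (algebraMap k Ω) j₁) (h₂ : IsBC (algebraMap k T) j₂) {a' : F₂}
    (h : (0, a') ∈ RI V j₁ j₂) : a' = 0 := by
  let β := Module.Basis.ofVectorSpace k F
  obtain ⟨w, w', h1, h2⟩ := ri_ind (p := fun z => ∃ (w : _ →₀ Ω) (w' : _ →₀ T),
      (∀ i, V.Val (w i) (w' i)) ∧ z = (Finsupp.linearCombination Ω (fun i => j₁ (β i)) w,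
        Finsupp.linearCombination T (fun i => j₂ (β i)) w'))
    ⟨0, 0, fun _ => V.val_zero, by simp [Prod.ext_iff]⟩
    (fun v c f h => ⟨v • (β.repr f).mapRange (algebraMap k Ω) (map_zero _),
      c • (β.repr f).mapRange (algebraMap k T) (map_zero _),
      fun i => by simpa using h.mul (V.val_cst (β.repr f i)),
      by rw [lc_base h₁.comm, lc_base h₂.comm]⟩)
    (fun z z' ⟨w, w', h1, h2⟩ ⟨u, u', h3, h4⟩ => ⟨w + u, w' + u', fun i => (h1 i).add (h3 i),
      by rw [h2, h4, map_add, map_add]; rfl⟩) h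
  obtain ⟨h3, h4⟩ := Prod.ext_iff.1 h2
  have h5 : w = 0 := indep_inf h₁ β.linearIndependent (by rw [map_zero]; exact h3.symm)
  have h6 : w' = 0 := Finsupp.ext fun i => (h1 i).unique (by rw [h5]; exact V.val_zero)
  simpa [h6] using h4

theorem ri_ne (h₁ : IsBC (algebraMap k Ω) j₁) (h₂ : IsBC (algebraMap k T) j₂) {a : F₁} {a' : F₂}
    (h : (a, a') ∈ RI V j₁ j₂) (ha : a' ≠ 0) : a ≠ 0 := fun e => ha (ri_zero h₁ h₂ (e ▸ h))

/-! ### Matrices -/

section

variable (V j₁ j₂) (x : F) {n : ℕ} (e : Fin n → F)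

/-- The multiplication has a matrix with integral polynomial entries. -/
def Mat (z : F₁ × F₂) : Prop := ∃ G : Matrix (Fin n) (Fin n) V.O[X],
  (∀ t, z.1 * j₁ (e t) = ∑ i, aeval (j₁ x) ((G i t).map V.O.subtype) * j₁ (e i)) ∧
    ∀ t, z.2 * j₂ (e t) = ∑ i, aeval (j₂ x) ((G i t).map V.r) * j₂ (e i)

variable {V j₁ j₂ x e}

theorem Mat.zero : Mat V j₁ j₂ x e 0 := ⟨0, by simp, by simp⟩

theorem Mat.one : Mat V j₁ j₂ x e 1 := by
  classical
  exact ⟨1, fun t => by simp [Matrix.one_apply, apply_ite, ite_mul],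
    fun t => by simp [Matrix.one_apply, apply_ite, ite_mul]⟩

theorem Mat.add {z w : F₁ × F₂} (h : Mat V j₁ j₂ x e z) (h' : Mat V j₁ j₂ x e w) :
    Mat V j₁ j₂ x e (z + w) := by
  obtain ⟨G, h1, h2⟩ := h
  obtain ⟨G', h3, h4⟩ := h'
  exact ⟨G + G', fun t => by simp [add_mul, h1, h3, Finset.sum_add_distrib],
    fun t => by simp [add_mul, h2, h4, Finset.sum_add_distrib]⟩

theorem Mat.smul {z : F₁ × F₂} (h : Mat V j₁ j₂ x e z) (q : V.O[X]) : Mat V j₁ j₂ x e
    ((aeval (j₁ x) (q.map V.O.subtype), aeval (j₂ x) (q.map V.r)) * z) := by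
  obtain ⟨G, h1, h2⟩ := h
  exact ⟨q • G, fun t => by simp [mul_assoc, h1, Finset.mul_sum],
    fun t => by simp [mul_assoc, h2, Finset.mul_sum]⟩

end

theorem aeval_up {j : F →+* F₂}
    (h : ∀ a, j (algebraMap k F a) = algebraMap T F₂ (algebraMap k T a)) (x : F) (d : k[X]) :
    aeval (j x) (d.map (algebraMap k T)) = j (aeval x d) :=
  (map_aeval_eq_aeval_map (RingHom.ext fun a => (h a).symm) d x).symm

theorem exists_lift (V : Pl k Ω T) (d : k[X]) : ∃ q : V.O[X],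
    q.map V.O.subtype = d.map (algebraMap k Ω) ∧ q.map V.r = d.map (algebraMap k T) :=
  ⟨d.map ((algebraMap k Ω).codRestrict V.O V.cst), by rw [Polynomial.map_map]; rfl, by
    rw [Polynomial.map_map]
    exact congrArg (d.map ·) (RingHom.ext V.r_cst)⟩

theorem Mat.pol (h₁ : IsBC (algebraMap k Ω) j₁) (h₂ : IsBC (algebraMap k T) j₂) {x : F} {n : ℕ}
    {e : Fin n → F} {z : F₁ × F₂} (h : Mat V j₁ j₂ x e z) (d : k[X]) :
    Mat V j₁ j₂ x e ((j₁ (aeval x d), j₂ (aeval x d)) * z) := by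
  obtain ⟨q, h1, h2⟩ := exists_lift V d
  have := h.smul q
  rwa [h1, h2, aeval_up h₁.comm, aeval_up h₂.comm] at this

open scoped IntermediateField.algebraAdjoinAdjoin in
theorem exists_mat (h₁ : IsBC (algebraMap k Ω) j₁) (h₂ : IsBC (algebraMap k T) j₂) {x : F} {n : ℕ}
    (e : Module.Basis (Fin n) k⟮x⟯ F) {z : F₁ × F₂} (hz : z ∈ RI V j₁ j₂) :
    ∃ d : k[X], aeval x d ≠ 0 ∧ Mat V j₁ j₂ x e ((j₁ (aeval x d), j₂ (aeval x d)) * z) := by
  refine ri_ind (p := fun z => ∃ d : k[X], aeval x d ≠ 0 ∧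
    Mat V j₁ j₂ x e ((j₁ (aeval x d), j₂ (aeval x d)) * z)) ⟨1, by simp, by simpa using Mat.zero⟩
    (fun v c f h => ?_) (fun z w ⟨d, h1, h2⟩ ⟨d', h3, h4⟩ => ⟨d * d', by simp [h1, h3], ?_⟩) hz
  · obtain ⟨⟨b, hb⟩, hB⟩ := IsLocalization.exist_integer_multiples_of_finite
      (nonZeroDivisors (Algebra.adjoin k {x})) fun p : Fin n × Fin n => e.repr (f * e p.2) p.1
    obtain ⟨d, hd⟩ := Algebra.adjoin_mem_exists_aeval k x b.2
    have : ∀ p : Fin n × Fin n, ∃ B : k[X], aeval x B = aeval x d * e.repr (f * e p.2) p.1 :=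
      fun p => by
        obtain ⟨y, hy⟩ := hB p
        obtain ⟨B, hB⟩ := Algebra.adjoin_mem_exists_aeval k x y.2
        exact ⟨B, by rw [hB, hd]; exact congrArg Subtype.val hy⟩
    choose B hB using this
    choose q q1 q2 using fun p => exists_lift V (B p)
    have key : ∀ t, aeval x d * f * e t = ∑ i, aeval x (B (i, t)) * e i := fun t => by
      rw [mul_assoc, ← e.sum_repr (f * e t), Finset.mul_sum]
      exact Finset.sum_congr rfl fun i _ => by rw [hB, mul_assoc]; rfl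
    have m : Mat V j₁ j₂ x e (j₁ (aeval x d * f), j₂ (aeval x d * f)) :=
      ⟨Matrix.of fun i t => q (i, t),
        fun t => by simp only [Matrix.of_apply, q1, aeval_up h₁.comm, ← map_mul, key, map_sum],
        fun t => by simp only [Matrix.of_apply, q2, aeval_up h₂.comm, ← map_mul, key, map_sum]⟩
    refine ⟨d, fun e' => nonZeroDivisors.ne_zero hb (Subtype.ext (hd.symm.trans e')), ?_⟩
    convert m.smul (C ⟨v, h.1⟩) using 1
    simp [h.2, Algebra.smul_def, mul_left_comm]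
  · convert (h2.pol h₁ h₂ d').add (h4.pol h₁ h₂ d) using 1
    simp only [map_mul, ← Prod.mk_mul_mk]
    ring

variable {s : Plk Ω F₁ → Plk T F₂}

theorem pv_iff (h₁ : IsBC (algebraMap k Ω) j₁) (h₂ : IsBC (algebraMap k T) j₂)
    (hs : ∀ P f b c, pv P (j₁ f) b → V.Val b c → pv (s P) (j₂ f) c) {x : F} (hx : x ≠ 0)
    (P : Plk Ω F₁) (c : T) : pv (s P) (j₂ x) c ↔ ∃ b, pv P (j₁ x) b ∧ V.Val b c := by
  refine ⟨fun h => ?_, fun ⟨b, h1, h2⟩ => hs P x b c h1 h2⟩
  have key : ∀ f c, ((pull j₁ h₁.comm P).comp V).Val f c ↔ ∃ b, pv P (j₁ f) b ∧ V.Val b c :=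
    fun f c => by simp only [Pl.val_comp, val_pull]
  rcases ((pull j₁ h₁.comm P).comp V).val_or x with h1 | h1
  · obtain ⟨b, h2, h3⟩ := (key _ _).1 (Pl.val_of_mem h1)
    exact ⟨b, h2, pv_unique (hs P x b _ h2 h3) h ▸ h3⟩
  · obtain ⟨b, h2, h3⟩ := (key _ _).1 h1
    exact absurd ((val_pull j₂ h₂.comm _ _ _).2 h).1
      (((val_pull j₂ h₂.comm _ _ _).2 (hs P _ b _ h2 h3)).not_mem hx)

theorem mat_key (h₁ : IsBC (algebraMap k Ω) j₁) (h₂ : IsBC (algebraMap k T) j₂)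
    (hs : ∀ P f b c, pv P (j₁ f) b → V.Val b c → pv (s P) (j₂ f) c) {x : F}
    (hx : ∀ a : k, x ≠ algebraMap k F a) {n : ℕ} (e : Module.Basis (Fin n) k⟮x⟯ F) {z : F₁ × F₂}
    (h : Mat V j₁ j₂ x e z) (h1 : z.1 ≠ 0) (h2 : z.2 ≠ 0) :
    pf (fun P c => pv P (j₂ x) c) ((dv Ω z.1).mapDomain s - dv T z.2) = 0 := by
  obtain ⟨G, g1, g2⟩ := h
  haveI : IsAlgClosed Ω := CFF.ac F₁
  obtain ⟨a1, a2⟩ := pf_dv h₂ hx e V.r h2 G g2
  rw [map_sub, pf_comp (fn_pv _) (fn_val V) (fn_pv _)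
    (pv_iff h₁ h₂ hs fun e => hx 0 (by rw [e, map_zero])), (pf_dv h₁ hx e _ h1 G g1).2, a2,
    roots_red V _ a1, sub_self]

theorem exists_sepa [CharZero k] (B : BCX) (h₂ : IsBC (algebraMap k T) j₂) (Q : Plk T F₂)
    (S : Finset (Plk T F₂)) : ∃ (x : F) (c : T), pv Q (j₂ x) c ∧
      ∀ P ∈ S, P ≠ Q → ¬ pv P (j₂ x) c := by
  classical
  simp only [← val_pull j₂ h₂.comm]
  induction S using Finset.induction_on with
  | empty => exact ⟨0, 0, Pl.val_zero _, by simp⟩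
  | insert R S _ ih =>
    obtain ⟨x, c, h1, h2⟩ := ih
    by_cases hR : R = Q
    · exact ⟨x, c, h1, fun P hP h => h2 P ((Finset.mem_insert.1 hP).resolve_left (hR ▸ h)) h⟩
    obtain ⟨g, d, h3, h4⟩ : ∃ g d, (pull j₂ h₂.comm Q).Val g d ∧ ¬ (pull j₂ h₂.comm R).Val g d := by
      by_contra h
      push Not at h
      exact hR ((B.pt k F T F₂ j₂ h₂ (pull j₂ h₂.comm Q)).unique
        (fun f c h' => (val_pull _ _ _ _ _).1 (h f c h')) fun f c h' => (val_pull _ _ _ _ _).1 h')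
    have fin : (⋃ P ∈ (insert R S).erase Q,
        {μ : k | (pull j₂ h₂.comm P).Val (x + μ • g) (c + μ • d)}).Finite := by
      refine (Finset.finite_toSet _).biUnion fun P hP => Set.Subsingleton.finite fun μ a ν b => ?_
      by_contra hne
      have e1 := (Pl.Val.sub a b).smul (μ - ν)⁻¹
      simp only [add_sub_add_left_eq_sub, ← sub_smul, inv_smul_smul₀ (sub_ne_zero.2 hne)] at e1
      have e2 := Pl.Val.sub a (e1.smul μ)
      simp only [add_sub_cancel_right] at e2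
      obtain ⟨p1, p2⟩ := Finset.mem_erase.1 hP
      rcases Finset.mem_insert.1 p2 with rfl | p3
      exacts [h4 e1, h2 P p3 p1 e2]
    obtain ⟨μ, hμ⟩ := fin.exists_notMem
    exact ⟨x + μ • g, c + μ • d, h1.add (h3.smul μ), fun P hP h h' =>
      hμ (Set.mem_biUnion (Finset.mem_coe.2 (Finset.mem_erase.2 ⟨h, hP⟩)) h')⟩

/-- The divisor of the reduction is the reduction of the divisor. -/
theorem ri_key [CharZero k] (B : BCX) (h₁ : IsBC (algebraMap k Ω) j₁)
    (h₂ : IsBC (algebraMap k T) j₂)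
    (hs : ∀ P f b c, pv P (j₁ f) b → V.Val b c → pv (s P) (j₂ f) c) {a : F₁} {a' : F₂}
    (h : (a, a') ∈ RI V j₁ j₂) (ha : a' ≠ 0) : (dv Ω a).mapDomain s = dv T a' := by
  classical
  refine sub_eq_zero.1 (Finsupp.ext fun Q => ?_)
  obtain ⟨R, hR⟩ : ∃ R : Plk T F₂, R ≠ Q := by
    obtain ⟨y, hy⟩ := h₂.exists_nc
    obtain ⟨P, hP⟩ := exists_zero hy
    obtain ⟨P', hP'⟩ := exists_pole hy
    by_contra h'
    push Not at h'
    rw [h' P] at hP
    rw [h' P'] at hP'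
    omega
  set D := (dv Ω a).mapDomain s - dv T a' with hD
  obtain ⟨x, c, x1, x2⟩ := exists_sepa B h₂ Q (insert R D.support)
  have hx : ∀ b : k, x ≠ algebraMap k F b := by
    rintro b rfl
    rw [h₂.comm] at x1 x2
    exact x2 R (Finset.mem_insert_self _ _) hR (pv_unique (pv_cst Q _) x1 ▸ pv_cst R _)
  haveI := (finite_of_notMem hx).2
  let e := Module.finBasis k⟮x⟯ F
  obtain ⟨d, d0, hd⟩ := exists_mat h₁ h₂ e h
  have d1 : j₁ (aeval x d) ≠ 0 := by simpa using d0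
  have d2 : j₂ (aeval x d) ≠ 0 := by simpa using d0
  have a0 := ri_ne h₁ h₂ h ha
  have k1 := mat_key h₁ h₂ hs hx e hd (mul_ne_zero d1 a0) (mul_ne_zero d2 ha)
  have k2 := mat_key h₁ h₂ hs hx e (Mat.one.pol h₁ h₂ d) (by simpa using d0) (by simpa using d0)
  simp only [Prod.fst_mul, Prod.snd_mul, Prod.fst_one, Prod.snd_one, mul_one] at k1 k2
  rw [dv_mul d1 a0, dv_mul d2 ha, Finsupp.mapDomain_add, add_sub_add_comm, map_add, k2,
    zero_add] at k1
  have := pf_apply (fn_pv (j₂ x)) (s := id) (b := c) (c := Q) D.support (fun P hP =>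
    ⟨fun h => by_contra fun h' => x2 P (Finset.mem_insert_of_mem hP) h' h,
      fun h => (show P = Q from h) ▸ x1⟩) D subset_rfl
  rw [Finsupp.mapDomain_id, k1] at this
  exact this.symm

end Vale.Agent.P297Y.AJ.Spec
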