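import Vale.Agent.P297Y.AJ.Sk
import Vale.Agent.P025.R2.H816.BC4
import Vale.Agent.P025.R2.H492.Line

/-! Push forward of divisors along relations, reduction of roots, norms. -/

set_option linter.all false

namespace Vale.Agent.P297Y.AJ.Spec

open Vale.Agent.P019P P025H816 Polynomial IntermediateField

section pf

variable {A B C : Type}

open Classical in
/-- The push forward along a functional relation. -/
noncomputable def pf (R : A → B → Prop) : (A →₀ ℤ) →+ (B →₀ ℤ) :=
  Finsupp.liftAddHom fun a => if h : ∃ b, R a b then Finsupp.singleAddHom h.choose else 0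

/-- The relation is functional. -/
def Fn (R : A → B → Prop) : Prop := ∀ a b b', R a b → R a b' → b = b'

theorem pf_some {R : A → B → Prop} (h : Fn R) {a : A} {b : B} (hb : R a b) (n : ℤ) :
    pf R (Finsupp.single a n) = Finsupp.single b n := by
  have e : ∃ b, R a b := ⟨b, hb⟩
  rw [pf, Finsupp.liftAddHom_apply_single, dif_pos e, h a _ _ e.choose_spec hb]
  rfl

theorem pf_none {R : A → B → Prop} {a : A} (h : ∀ b, ¬ R a b) (n : ℤ) :
    pf R (Finsupp.single a n) = 0 := by
  rw [pf, Finsupp.liftAddHom_apply_single, dif_neg (not_exists.2 h)]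
  rfl

theorem pf_comp {A' : Type} {R₁ : A → B → Prop} {R : B → C → Prop} {R₂ : A' → C → Prop}
    (h₁ : Fn R₁) (h : Fn R) (h₂ : Fn R₂) {s : A → A'}
    (hs : ∀ a c, R₂ (s a) c ↔ ∃ b, R₁ a b ∧ R b c) (D : A →₀ ℤ) :
    pf R₂ (D.mapDomain s) = pf R (pf R₁ D) := by
  induction D using Finsupp.induction_linear with
  | zero => simp
  | add f g hf hg => rw [Finsupp.mapDomain_add, map_add, map_add, map_add, hf, hg]
  | single a n =>
    rw [Finsupp.mapDomain_single]
    by_cases e : ∃ c, R₂ (s a) c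
    · obtain ⟨c, hc⟩ := e
      obtain ⟨b, h1, h2⟩ := (hs a c).1 hc
      rw [pf_some h₂ hc, pf_some h₁ h1, pf_some h h2]
    · rw [pf_none (not_exists.1 e)]
      by_cases e' : ∃ b, R₁ a b
      · obtain ⟨b, hb⟩ := e'
        rw [pf_some h₁ hb, pf_none fun c hc => e ⟨c, (hs a c).2 ⟨b, hb, hc⟩⟩]
      · rw [pf_none (not_exists.1 e'), map_zero]

/-- Two push forwards agree at two points with the same fibre. -/
theorem pf_apply {R : A → B → Prop} (h : Fn R) {s : A → C} {b : B} {c : C} (S : Finset A)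
    (hs : ∀ a ∈ S, R a b ↔ s a = c) (D : A →₀ ℤ) (hD : D.support ⊆ S) :
    pf R D b = D.mapDomain s c := by
  classical
  rw [← Finsupp.sum_single D, Finsupp.sum, map_sum, Finsupp.mapDomain_finset_sum,
    Finsupp.finset_sum_apply, Finsupp.finset_sum_apply]
  refine Finset.sum_congr rfl fun a ha => ?_
  have h1 := hs a (hD ha)
  rw [Finsupp.mapDomain_single]
  by_cases e : ∃ b', R a b'
  · obtain ⟨b', hb'⟩ := e
    rw [pf_some h hb', Finsupp.single_apply, Finsupp.single_apply]
    exact if_congr ⟨fun e => h1.1 (e ▸ hb'), fun e => h a _ _ hb' (h1.2 e)⟩ rfl rfl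
  · rw [pf_none (not_exists.1 e), Finsupp.single_eq_of_ne' fun e' => e ⟨b, h1.2 e'⟩]
    rfl

open Classical in
/-- The divisor of a multiset. -/
noncomputable def Zm : Multiset A →+ (A →₀ ℤ) :=
  (Finsupp.mapRange.addMonoidHom (Nat.castAddMonoidHom ℤ)).comp Multiset.toFinsupp.toAddMonoidHom

theorem Zm_apply [DecidableEq A] (m : Multiset A) (a : A) : Zm m a = m.count a := by
  simp [Zm]
  congr

theorem Zm_single (a : A) : Zm ({a} : Multiset A) = Finsupp.single a 1 := by
  classical
  ext b
  rw [Zm_apply, Multiset.count_singleton, Finsupp.single_apply]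
  by_cases h : b = a
  · simp [h]
  · simp [h, Ne.symm h]

end pf

section roots

variable {k Ω T : Type} [Field k] [Field Ω] [Field T] [Algebra k Ω] [Algebra k T] (V : Pl k Ω T)

theorem fn_val : Fn V.Val := fun _ _ _ => Pl.Val.unique

theorem exists_red (m : Multiset Ω) : ∃ (μ : Ω) (q : V.O[X]), μ ≠ 0 ∧ q.map V.r ≠ 0 ∧
    q.map V.O.subtype = C μ * (m.map fun b => X - C b).prod ∧
    pf V.Val (Zm m) = Zm (q.map V.r).roots := by
  induction m using Multiset.induction_on with
  | empty => exact ⟨1, 1, one_ne_zero, by simp, by simp, by simp⟩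
  | cons b m ih =>
    obtain ⟨μ, q, h0, h1, h2, h3⟩ := ih
    rw [← Multiset.singleton_add, map_add, map_add, h3, Zm_single, Multiset.singleton_add,
      Multiset.map_cons, Multiset.prod_cons]
    by_cases hb : b ∈ V.O
    · have e : ((X - C (⟨b, hb⟩ : V.O)) * q).map V.r = (X - C (V.r ⟨b, hb⟩)) * q.map V.r := by
        simp
      have e0 := mul_ne_zero (X_sub_C_ne_zero (V.r ⟨b, hb⟩)) h1
      refine ⟨μ, (X - C (⟨b, hb⟩ : V.O)) * q, h0, by rwa [e], ?_, ?_⟩
      · rw [Polynomial.map_mul, h2]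
        simp
        ring
      · rw [e, roots_mul e0, roots_X_sub_C, map_add, Zm_single,
          pf_some (fn_val V) (Pl.val_of_mem hb)]
    · obtain ⟨h4, h5⟩ := (V.val_or b).resolve_left hb
      have b0 : b ≠ 0 := fun e => hb (e ▸ V.O.zero_mem)
      have e : ((1 - C (⟨_, h4⟩ : V.O) * X) * q).map V.r = q.map V.r := by simp [h5]
      refine ⟨-b⁻¹ * μ, (1 - C (⟨_, h4⟩ : V.O) * X) * q, by simp [h0, b0], by rwa [e],
        ?_, ?_⟩
      · have : (C b⁻¹ : Polynomial Ω) * C b = 1 := by rw [← C_mul, inv_mul_cancel₀ b0, C_1]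
        rw [Polynomial.map_mul, h2]
        simp only [Polynomial.map_sub, Polynomial.map_one, Polynomial.map_mul, map_C, map_X, C_mul,
          C_neg, ValuationSubring.subtype_apply]
        linear_combination (-(C μ * (m.map fun b => X - C b).prod)) * this
      · rw [e, pf_none fun c hc => hb hc.1, zero_add]

/-- The roots reduce to the roots of the reduction. -/
theorem roots_red [IsAlgClosed Ω] (p : V.O[X]) (hp : p.map V.r ≠ 0) :
    pf V.Val (Zm (p.map V.O.subtype).roots) = Zm (p.map V.r).roots := by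
  obtain ⟨μ, q, h0, h1, h2, h3⟩ := exists_red V (p.map V.O.subtype).roots
  have inj := map_injective V.O.subtype Subtype.val_injective
  have h4 := C_leadingCoeff_mul_prod_multiset_X_sub_C
    (IsAlgClosed.card_roots_eq_natDegree (p := p.map V.O.subtype))
  set a := (p.map V.O.subtype).leadingCoeff
  have a0 : a ≠ 0 := leadingCoeff_ne_zero.2 fun e => hp (by
    rw [inj (e.trans (Polynomial.map_zero _).symm), Polynomial.map_zero])
  rcases V.val_or (a / μ) with h | ⟨h, h'⟩
  · have e : p = C (⟨_, h⟩ : V.O) * q := inj (by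
      rw [Polynomial.map_mul, h2, map_C, ← mul_assoc, ← C_mul]
      simpa [h0] using h4.symm)
    rw [h3]
    rw [e, Polynomial.map_mul, map_C] at hp ⊢
    rw [roots_C_mul _ fun e => hp (by rw [e, C_0, zero_mul])]
  · have e : q = C (⟨_, h⟩ : V.O) * p := inj (by
      rw [Polynomial.map_mul, h2, map_C]
      conv_rhs => rw [← h4]
      rw [← mul_assoc, ← C_mul]
      simp [a0])
    exact absurd (by rw [e, Polynomial.map_mul, map_C, h', C_0, zero_mul]) h1

end roots

section norm

variable {k F T F' : Type} [Field k] [Field F] [Field T] [Field F'] [Algebra k F] [Algebra k T]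
  [Algebra T F'] [CFF k F] [CFF T F']

theorem fn_pv (y : F') : Fn fun (P : Plk T F') c => pv P y c := fun _ _ _ => pv_unique

theorem ord_aeval {P : Plk T F'} {y : F'} {c : T} (h : ord P (y - algebraMap T F' c) = 1)
    {p : T[X]} (hp : p ≠ 0) : ord P (aeval y p) = p.rootMultiplicity c := by
  obtain ⟨q, h1, h2⟩ := exists_eq_pow_rootMultiplicity_mul_and_not_dvd p hp c
  have h0 : y - algebraMap T F' c ≠ 0 := fun e => by simp [e, ord_zero] at h
  have h3 := ord_aeval_of_coeff_ne (P := P) (x := y - algebraMap T F' c) (by omega)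
    (φ := taylor c q) (by rw [taylor_coeff_zero]; exact fun e => h2 (dvd_iff_isRoot.2 e))
  rw [taylor_apply, aeval_comp] at h3
  simp only [map_add, aeval_X, aeval_C, sub_add_cancel] at h3
  conv_lhs => rw [h1]
  rw [map_mul, map_pow, map_sub, aeval_X, aeval_C, ord_mul P (pow_ne_zero _ h0) h3.1, ord_pow, h,
    h3.2, mul_one, add_zero]

theorem indep_up {j : F →+* F'} (hj : IsBC (algebraMap k T) j) {x : F}
    (hx : ∀ a : k, x ≠ algebraMap k F a) {n : ℕ} {e : Fin n → F} (he : LinearIndependent k⟮x⟯ e) :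
    LinearIndependent T⟮j x⟯ fun i => j (e i) := by
  refine indep_of_poly (finite_of_notMem (hj.nc_up hx)).1 fun φ hφ i => ?_
  obtain ⟨N, hN⟩ : ∃ N, ∀ i, (φ i).natDegree < N :=
    ⟨Finset.univ.sup (fun i => (φ i).natDegree) + 1, fun i =>
      Nat.lt_succ_of_le (Finset.le_sup (f := fun i => (φ i).natDegree) (Finset.mem_univ i))⟩
  have h1 := hj.indep ((indep_pow_mul (finite_of_notMem hx).1 he).comp
    (fun p : Fin n × Fin N => (p.1, p.2.1)) fun p q h => by
      simpa [Prod.ext_iff, Fin.ext_iff] using h)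
  have h2 := Fintype.linearIndependent_iff.1 h1 (fun p => (φ p.1).coeff p.2) (by
    rw [← hφ, Fintype.sum_prod_type]
    refine Finset.sum_congr rfl fun i _ => ?_
    rw [aeval_eq_sum_range' (hN i), Finset.sum_range, Finset.sum_mul]
    simp [smul_mul_assoc])
  ext m
  by_cases hm : m < N
  · exact h2 (i, ⟨m, hm⟩)
  · exact coeff_eq_zero_of_natDegree_lt ((hN i).trans_le (not_lt.1 hm))

/-- The divisor of a function, pushed to the line, is the divisor of a determinant. -/
theorem pf_dv {j : F →+* F'} (hj : IsBC (algebraMap k T) j) {x : F}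
    (hx : ∀ a : k, x ≠ algebraMap k F a) {n : ℕ} (e : Module.Basis (Fin n) k⟮x⟯ F) {A : Type}
    [CommRing A] (ρ : A →+* T) {a : F'} (ha : a ≠ 0) (G : Matrix (Fin n) (Fin n) A[X])
    (hG : ∀ t, a * j (e t) = ∑ i, aeval (j x) ((G i t).map ρ) * j (e i)) :
    G.det.map ρ ≠ 0 ∧ pf (fun P c => pv P (j x) c) (dv T a) = Zm (G.det.map ρ).roots := by
  classical
  have hy := hj.nc_up hx
  haveI := P025H492.cff_adjoin hy
  haveI := (finite_of_notMem hy).2
  haveI : Nonempty (Fin n) := e.index_nonempty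
  let ε := basisOfLinearIndependentOfCardEqFinrank (indep_up hj hx e.linearIndependent)
    (by rw [(hj.finrank_eq_and hy).1, Module.finrank_eq_card_basis e])
  let φ : A[X] →+* T⟮j x⟯ :=
    (aeval (AdjoinSimple.gen T (j x))).toRingHom.comp (mapRingHom ρ)
  have h1 : Algebra.leftMulMatrix ε a = φ.mapMatrix G := by
    ext i t
    have : a * ε t = ∑ i, φ (G i t) • ε i := by
      simp only [ε, coe_basisOfLinearIndependentOfCardEqFinrank, hG, Algebra.smul_def]
      exact Finset.sum_congr rfl fun i _ => by rw [← CTrc_map_psi]; rfl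
    rw [Algebra.leftMulMatrix_eq_repr_mul, this, ε.repr_sum_self]
    rfl
  have h2 : Algebra.norm T⟮j x⟯ a = aeval (AdjoinSimple.gen T (j x)) (G.det.map ρ) := by
    rw [Algebra.norm_eq_matrix_det ε, h1, ← RingHom.map_det]
    rfl
  have h3 : G.det.map ρ ≠ 0 := fun e' => P025H492.norm_ne_zero' (K := T⟮j x⟯) ha (by
    rw [h2, e', map_zero])
  refine ⟨h3, Finsupp.ext fun c => ?_⟩
  obtain ⟨Q, q1, q2⟩ := P025H492.line_fib hy c
  rw [Zm_apply, count_roots, ← ord_aeval q1 h3, ← h2, ← dv_apply, P025H492.dv_norm,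
    pf_apply (fn_pv _) (s := P025H492.down T⟮j x⟯) (c := Q) _ (fun P _ => ?_) _ subset_rfl]
  · rfl
  · have := P025H492.ord_up_pos_iff P (AdjoinSimple.gen T (j x) - algebraMap T T⟮j x⟯ c)
    rw [map_sub, AdjoinSimple.algebraMap_gen, ← IsScalarTower.algebraMap_apply] at this
    exact ⟨fun h => q2 _ (this.1 (h.elim (fun h => absurd (sub_eq_zero.1 h) (hy c))
      fun h => by omega)), fun h => Or.inr (this.2 (by rw [h, q1]; exact one_pos))⟩

end norm

end Vale.Agent.P297Y.AJ.Spec
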